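import Vale.Agent.Lib.P102D.Structure

/-!
# P102: a mixing transformation is mixing of all orders, or its centralizer is special
-/

open MeasureTheory Filter Topology

namespace Vale.Agent.Results.P102.CentralizerDichotomy

variable {Ω : Type*} [MeasurableSpace Ω]

/-- Mixing of order `k` (order 2 is mixing): if all gaps `t_j - t_i` (`i < j`) of the times
`t n : Fin k → ℤ` tend to infinity, then `μ (⋂ T^{-t_i} A_i) → ∏ μ (A_i)`. -/
def MixesOfOrder (μ : Measure Ω) (T : Ω ≃ᵐ Ω) (k : ℕ) : Prop :=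
  ∀ A : Fin k → Set Ω, (∀ i, MeasurableSet (A i)) → ∀ t : ℕ → Fin k → ℤ,
    (∀ i j, i < j → Tendsto (fun n => t n j - t n i) atTop atTop) →
    Tendsto (fun n => μ.real (⋂ i, ((T.toEquiv : Equiv.Perm Ω) ^ t n i) ⁻¹' A i)) atTop
      (𝓝 (∏ i, μ.real (A i)))

/-- Weak convergence `u n → g` in `L²(μ)`. -/
def WeakLimit {μ : Measure Ω} (u : ℕ → Lp ℝ 2 μ) (g : Lp ℝ 2 μ) : Prop :=
  ∀ φ : Lp ℝ 2 μ, Tendsto (fun n => inner ℝ (u n) φ) atTop (𝓝 (inner ℝ g φ))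

/-- Let `T` be an invertible mixing probability-preserving transformation.  Either `T` is mixing of
all orders, or there is a nonzero closed subspace `M` of mean-zero functions in `L²(μ)`, invariant
under the centralizer of `T`, such that for every sequence `S n` in the centralizer, all weak limits
`f ∘ S n → g`, `g ∘ (S n)⁻¹ → h` with `f ∈ M` satisfy `g, h ∈ M`, `‖h‖ = ‖g‖` and
`⟪f, h⟫ = ‖h‖ ^ 2`; moreover no sequence in the centralizer converges to `α I + (1 - α) Θ` with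
`0 < α < 1`. -/
theorem result (μ : Measure Ω) [IsProbabilityMeasure μ] (T : Ω ≃ᵐ Ω)
    (hT : MeasurePreserving T μ μ) (hmix : MixesOfOrder μ T 2) :
    (∀ k : ℕ, 2 ≤ k → MixesOfOrder μ T k) ∨
    ((∃ M : Submodule ℝ (Lp ℝ 2 μ), IsClosed (M : Set (Lp ℝ 2 μ)) ∧ M ≠ ⊥ ∧
        (∀ f ∈ M, ∫ x, f x ∂μ = 0) ∧
        ∀ (S : ℕ → Ω ≃ᵐ Ω) (hS : ∀ n, MeasurePreserving (S n) μ μ),
          (∀ n x, S n (T x) = T (S n x)) →
          (∀ n, ∀ f ∈ M, Lp.compMeasurePreserving (S n) (hS n) f ∈ M) ∧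
          ∀ f ∈ M, ∀ g h : Lp ℝ 2 μ,
            WeakLimit (fun n => Lp.compMeasurePreserving (S n) (hS n) f) g →
            WeakLimit (fun n => Lp.compMeasurePreserving (S n).symm ((hS n).symm (S n)) g) h →
            g ∈ M ∧ h ∈ M ∧ ‖h‖ = ‖g‖ ∧ inner ℝ f h = ‖h‖ ^ 2) ∧
      ∀ α : ℝ, 0 < α → α < 1 → ¬ ∃ S : ℕ → Ω ≃ᵐ Ω, (∀ n, MeasurePreserving (S n) μ μ) ∧
        (∀ n x, S n (T x) = T (S n x)) ∧
        ∀ A B : Set Ω, MeasurableSet A → MeasurableSet B →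
          Tendsto (fun n => μ.real (A ∩ (S n) ⁻¹' B)) atTop
            (𝓝 (α * μ.real (A ∩ B) + (1 - α) * (μ.real A * μ.real B)))) := by
  have e : ∀ k, MixesOfOrder μ T k ↔ Vale.Agent.P102.MixingOfOrder μ T k :=
    fun k => (Vale.Agent.P102D.mixing_iff k).symm
  have h2 := (e 2).1 hmix
  by_cases hall : ∀ k : ℕ, 2 ≤ k → MixesOfOrder μ T k
  · exact Or.inl hall
  · refine Or.inr ⟨?_, fun α h0 h1 ⟨S, hS, hc, hlim⟩ => hall fun k hk => (e k).2
      (Vale.Agent.P102.kappa_thm hT h2 α h0 h1 S hS hc hlim k hk)⟩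
    push Not at hall
    obtain ⟨k, hk, hno⟩ := hall
    exact Vale.Agent.P102D.structure' hT h2 ⟨k, hk, fun h => hno ((e k).2 h)⟩

end Vale.Agent.Results.P102.CentralizerDichotomy
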