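import Mathlib
import Vale.Agent.Lib.P102.Defs
import Vale.Agent.Lib.P102.Kappa

open MeasureTheory Filter Topology

namespace Vale.Agent.Results.P102.KappaCentralizer

open Vale.Agent.P102

/-- Let `T` be mixing. If some sequence of invertible measure-preserving maps commuting with `T`
converges to `α I + (1-α) Θ` for some `0 < α < 1`, then `T` is mixing of all orders. -/
theorem result {Ω : Type*} [MeasurableSpace Ω] (μ : Measure Ω) [IsProbabilityMeasure μ]
    (T : Ω ≃ᵐ Ω) (hT : MeasurePreserving T μ μ) (hmix : MixingOfOrder μ T 2)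
    (α : ℝ) (h0 : 0 < α) (h1 : α < 1) (S : ℕ → Ω ≃ᵐ Ω)
    (hS : ∀ n, MeasurePreserving (S n) μ μ) (hcomm : ∀ n x, S n (T x) = T (S n x))
    (hlim : ∀ A B : Set Ω, MeasurableSet A → MeasurableSet B →
      Tendsto (fun n => μ.real (A ∩ (S n) ⁻¹' B)) atTop
        (𝓝 (α * μ.real (A ∩ B) + (1 - α) * (μ.real A * μ.real B)))) :
    ∀ k : ℕ, 2 ≤ k → MixingOfOrder μ T k :=
  kappa_thm hT hmix α h0 h1 S hS hcomm hlim

end Vale.Agent.Results.P102.KappaCentralizer
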