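import Mathlib
import Vale.Agent.Lib.P102.Defs
import Vale.Agent.Lib.P102.Kappa

open MeasureTheory Filter Topology

namespace Vale.Agent.Results.P102.WeakLimitCriterion

open Vale.Agent.P102

/-- Let `T` be mixing. Suppose that for every nonzero mean-zero `f ∈ L²` some sequence `S n` of
invertible measure-preserving maps commuting with `T` satisfies `f ∘ S n → g` and
`g ∘ (S n)⁻¹ → h` weakly with `‖h‖₂ < ‖g‖₂`. Then `T` is mixing of all orders. -/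
theorem result {Ω : Type*} [MeasurableSpace Ω] (μ : Measure Ω) [IsProbabilityMeasure μ]
    (T : Ω ≃ᵐ Ω) (hT : MeasurePreserving T μ μ) (hmix : MixingOfOrder μ T 2)
    (hyp : ∀ f : Ω → ℝ, MemLp f 2 μ → ∫ x, f x ∂μ = 0 → ¬ (f =ᵐ[μ] 0) →
      ∃ (S : ℕ → Ω ≃ᵐ Ω) (g h : Ω → ℝ), (∀ n, MeasurePreserving (S n) μ μ) ∧
        (∀ n x, S n (T x) = T (S n x)) ∧ MemLp g 2 μ ∧ MemLp h 2 μ ∧
        WeakTo μ (fun n => f ∘ S n) g ∧ WeakTo μ (fun n => g ∘ (S n).symm) h ∧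
        ∫ x, h x ^ 2 ∂μ < ∫ x, g x ^ 2 ∂μ) :
    ∀ k : ℕ, 2 ≤ k → MixingOfOrder μ T k :=
  criterion hT hmix hyp

end Vale.Agent.Results.P102.WeakLimitCriterion
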